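import Vale.Agent.P280.H63Y.Fin2

namespace Vale.Agent.Results.P280.CircleNef

open Vale.Agent.P280.T Vale.Agent.P280.H127

/-- The Campana-Peternell conjecture for projective manifolds with a torus action. `X` is a
projective manifold with nef tangent bundle and with the action of a torus `T` (which may be a
single `ℂ*`). Suppose that each weight `χ` such that `χ` and `-χ` are both weights of `T` on the
tangent space at some fixed point has one of the following two properties. Either some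
one-parameter group `l` of `T`, with `l χ ≠ 0`, has an isolated source, at which all its weights
are at most `|l χ|`, and an isolated sink (a source of `-l`); or, at every fixed point `x` at which
`χ` is a weight of `T` on the tangent space, its multiplicity is one and `2 χ` is not a weight (for
`χ = 0` this says that the fixed points of `T` are isolated). Then `X` is homogeneous; moreover
every tangent vector, of weight `χ`, at a fixed point of `T` is the value of a global vector field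
of weight `χ`. -/
theorem result {r : ℕ} {R : Type} [CommRing R] [Algebra ℂ R]
    (𝒜 : ℕ × (Fin r → ℤ) → Submodule ℂ R) [GradedAlgebra 𝒜] (hX : IsTorusManifold 𝒜)
    (hN : NefOnRationalCurves 𝒜)
    (hbal : ∀ y ξ χ, ¬ IsVertex 𝒜 y → IsFixed 𝒜 y ξ →
      TangentWeight 𝒜 y ξ χ → TangentWeight 𝒜 y ξ (-χ) →
      (∃ (l : (Fin r → ℤ) →+ ℤ) (p q : R →ₐ[ℂ] ℂ) (μ ρ : Fin r → ℤ) (b : ℤ), l χ ≠ 0 ∧
        IsSource 𝒜 l p μ |l χ| ∧ IsSource 𝒜 (-l) q ρ b) ∨
      ∀ x ν, ¬ IsVertex 𝒜 x → IsFixed 𝒜 x ν → TangentWeight 𝒜 x ν χ →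
        ¬ TangentWeight 𝒜 x ν (2 • χ) ∧
        ∀ v v' : R →ₗ[ℂ] ℂ, IsTangent x v → HasWeight 𝒜 ν χ v → IsTangent x v' →
          HasWeight 𝒜 ν χ v' → ∃ c c' : ℂ, (c ≠ 0 ∨ c' ≠ 0) ∧ ∀ h, c * v h + c' * v' h = 0) :
    (IsHomogeneousManifold 𝒜 ∧ IsTransitive 𝒜) ∧
    ∀ (x : R →ₐ[ℂ] ℂ) (ν χ : Fin r → ℤ), ¬ IsVertex 𝒜 x → IsFixed 𝒜 x ν →
      TangentWeight 𝒜 x ν χ → ∀ v : R →ₗ[ℂ] ℂ, IsTangent x v → HasWeight 𝒜 ν χ v →
        ∃ D : Derivation ℂ R R, (∀ d m, ∀ h ∈ 𝒜 (d, m), D h ∈ 𝒜 (d, m - χ)) ∧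
          ∀ h : R, x (D h) = v h := by
  obtain ⟨h1, h2⟩ := Vale.Agent.P280.H63Y.final2 hX hN hbal
  exact ⟨h2, fun x ν χ hx0 hx hχ v hv hw => h1 χ x ν hx0 hx hχ v hv hw⟩

end Vale.Agent.Results.P280.CircleNef
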