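import Vale.Agent.P280.R2.H63.AutR
import Vale.Agent.P280.R2.H730.Fin

namespace Vale.Agent.Results.P280.PinchedFixedPoint

open Vale.Agent.P280 Vale.Agent.P280.S Vale.Agent.P280.R2.H730 Vale.Agent.P280.H63

theorem eq_of_only {R : Type} [CommRing R] [Algebra ℂ R] {𝒜 : ℕ → Submodule ℂ R}
    {g : R ≃ₐ[ℂ] R} {x : R →ₐ[ℂ] ℂ} {c₀ c : ℂ} (hg : IsOnlyEigenvalue 𝒜 g x c₀)
    (hc : IsEigenvalue 𝒜 g x c) : c = c₀ := by
  obtain ⟨hg1, hgx, K, hK⟩ := hg
  obtain ⟨v, hv, ⟨k, hk⟩, hne⟩ := hc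
  obtain ⟨k', hk'⟩ := hK v hv
  by_contra hcc
  have key : ∀ j : ℕ, ∃ e : ℂ, ∀ d : ℕ, ∀ h ∈ 𝒜 d,
      v ((fun y => g y - c₀ • y)^[j] h) = (c - c₀) ^ j * v h + e * d * x h := by
    intro j
    induction j with
    | zero => exact ⟨0, fun d h _ => by simp⟩
    | succ j ih =>
      obtain ⟨e, he⟩ := ih
      refine ⟨(c - c₀) ^ j * k + e * (1 - c₀), fun d h hh => ?_⟩
      rw [Function.iterate_succ_apply, he d _ (Submodule.sub_mem _ (hg1 d h hh)
        (Submodule.smul_mem _ _ hh)), map_sub, map_sub, map_smul, map_smul, hk d h hh, hgx,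
        smul_eq_mul, smul_eq_mul]
      ring
  obtain ⟨e, he⟩ := key K
  have h0 : (c - c₀) ^ K ≠ 0 := pow_ne_zero _ (sub_ne_zero.2 hcc)
  obtain ⟨d, h, hh, hvh⟩ := hne ((k' - e) / (c - c₀) ^ K)
  apply hvh
  have h1 := he d h hh
  rw [hk' d h hh] at h1
  field_simp
  linear_combination -h1

/-- Let `X` be a projectively normal projective manifold with nef tangent bundle.

(1) `X` has an automorphism `g` with a fixed point `x` such that all eigenvalues `c`, `c'` of its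
differential at `x` satisfy `1 < |c| < |c'| ^ 2`, and such that two different eigenvalues have no
common power or `R` is factorial, if and only if `X` has a `ℂ^*`-action with a fixed point at which
all its tangent weights are one; in this case `X` is homogeneous, and it is symmetric at each of
its points.

(2) Let a torus act on `X` (by its weight spaces `ℬ (d, m)` in `R_d`), and let `p` be a fixed point
at which a one-parameter group `l` has its weights in `[b, a]`, `0 < b`. Suppose that different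
weights of the torus at `p` are not proportional or that `R` is factorial. Then each tangent vector
at `p` of a weight `χ` with `a < l χ + b` is the value of a vector field. -/
theorem result {R : Type} [CommRing R] [Algebra ℂ R] (𝒜 : ℕ → Submodule ℂ R) [GradedAlgebra 𝒜]
    (hX : IsProjectiveManifold 𝒜) (hN : NefOnRationalCurves 𝒜) :
    ((∃ (g : R ≃ₐ[ℂ] R) (x : R →ₐ[ℂ] ℂ), ¬ IsVertex 𝒜 x ∧ (∀ d : ℕ, ∀ h ∈ 𝒜 d, g h ∈ 𝒜 d) ∧
        (∀ h, x (g h) = x h) ∧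
        (∀ c c', IsEigenvalue 𝒜 g x c → IsEigenvalue 𝒜 g x c' → 1 < ‖c‖ ∧ ‖c‖ < ‖c'‖ ^ 2) ∧
        ((∀ c c', IsEigenvalue 𝒜 g x c → IsEigenvalue 𝒜 g x c' →
          (∃ j k : ℕ, 0 < j ∧ 0 < k ∧ c ^ j = c' ^ k) → c = c') ∨
          (IsDomain R ∧ UniqueFactorizationMonoid R))) ↔
      HasHomothety 𝒜 ∧ IsHomogeneousManifold 𝒜 ∧ IsTransitive 𝒜 ∧ IsSymmetricManifold 𝒜) ∧
    ∀ {r : ℕ} (ℬ : ℕ × (Fin r → ℤ) → Submodule ℂ R) [GradedAlgebra ℬ],
      (∀ d, 𝒜 d = ⨆ m : Fin r → ℤ, ℬ (d, m)) →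
      ∀ (l : (Fin r → ℤ) →+ ℤ) (p : R →ₐ[ℂ] ℂ) (μ : Fin r → ℤ) (a b : ℤ), ¬ IsVertex 𝒜 p →
        T.IsFixed ℬ p μ → 0 < b → (∀ χ, T.TangentWeight ℬ p μ χ → b ≤ l χ ∧ l χ ≤ a) →
        ((∀ χ χ', T.TangentWeight ℬ p μ χ → T.TangentWeight ℬ p μ χ' →
          (∃ j k : ℕ, 0 < j ∧ 0 < k ∧ j • χ = k • χ') → χ = χ') ∨
          (IsDomain R ∧ UniqueFactorizationMonoid R)) →
        ∀ (χ : Fin r → ℤ) (v : R →ₗ[ℂ] ℂ), T.TangentWeight ℬ p μ χ → IsTangent p v →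
          T.HasWeight ℬ μ χ v → a < l χ + b → ∃ D : Derivation ℂ R R, (∀ d, ∀ h ∈ 𝒜 d, D h ∈ 𝒜 d) ∧
            ∀ h, p (D h) = v h := by
  refine ⟨⟨?_, ?_⟩, ?_⟩
  · rintro ⟨g, x, hx0, hg, hgx, hpin, hnp⟩
    have h := hasHomothety_of_aut hX hN hx0 hg hgx hpin hnp
    exact ⟨h, (characterization hX hN).2 h⟩
  · rintro ⟨h, -⟩
    obtain ⟨g, x, hx0, hg⟩ := eigenvalue_of_hasHomothety hX h
    have h2 : ∀ c, IsEigenvalue 𝒜 g x c → c = 2 := fun c hc => eq_of_only hg hc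
    refine ⟨g, x, hx0, hg.1, hg.2.1, ?_, Or.inl ?_⟩
    · intro c c' hc hc'
      rw [h2 c hc, h2 c' hc']
      norm_num
    · intro c c' hc hc' _
      rw [h2 c hc, h2 c' hc']
  · intro r ℬ _ hr l p μ a b hp hfix hb hw hnp χ v hχ hv hvw hgap
    have hX' : T.IsTorusManifold ℬ := ref_isTorusManifold hr hX
    have hN' : T.NefOnRationalCurves ℬ := ref_nef hr hN
    have hs : T.IsSource ℬ l p μ a :=
      ⟨fun h => hp ((ref_isVertex hr).1 h), hfix, fun χ hχ => ⟨hb.trans_le (hw χ hχ).1,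
        (hw χ hχ).2⟩⟩
    have hG : Gap ℬ l b := by
      rcases hnp with hnp | ⟨h1, h2⟩
      · exact gap_of_np hX' hN' hs hnp fun χ hχ => (hw χ hχ).1
      · exact gap_of_ufd hX' hN' hs fun χ hχ => (hw χ hχ).1
    obtain ⟨D, hD, hDv⟩ := gap_lift hX' hN' hs hG hχ hgap hv hvw
    refine ⟨D, fun d => ?_, hDv⟩
    have h1 : 𝒜 d ≤ (𝒜 d).comap D.toLinearMap := ref_sub hr fun m y hy => by
      rw [Submodule.mem_comap]
      exact ref_le hr d (m - χ) (hD d m y hy)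
    exact fun h hh => h1 hh

end Vale.Agent.Results.P280.PinchedFixedPoint
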